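import Mathlib

/-!
Row 280 (S0423): the one-dimensional comparison argument.
-/

set_option autoImplicit false

open MeasureTheory Set Real Filter Topology

namespace Crest.Agent.R280

/-- Density of the Gamma(2) law. -/
noncomputable def w (y : ℝ) : ℝ := max y 0 * exp (-y)

/-- The unit step at `1`. -/
noncomputable def step (y : ℝ) : ℝ := if y ≤ 1 then 1 else 0

/-- Survival function of `b + a X`, `X` standard exponential. -/
noncomputable def cmp (a b y : ℝ) : ℝ := min 1 (exp (-((y - b) / a)))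

lemma w_nonneg (y : ℝ) : 0 ≤ w y := mul_nonneg (le_max_right _ _) (exp_pos _).le

lemma w_cont : Continuous w := by unfold w; fun_prop

lemma w_of_nonneg {y : ℝ} (hy : 0 ≤ y) : w y = y * exp (-y) := by
  unfold w; rw [max_eq_left hy]

lemma w_of_nonpos {y : ℝ} (hy : y ≤ 0) : w y = 0 := by
  unfold w; rw [max_eq_right hy, zero_mul]

lemma w_le_one (y : ℝ) : w y ≤ 1 := by
  rcases le_total y 0 with hy | hy
  · rw [w_of_nonpos hy]; norm_num
  · rw [w_of_nonneg hy, exp_neg, ← div_eq_mul_inv, div_le_one (exp_pos _)]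
    linarith [add_one_le_exp y]

lemma w_mono {x y : ℝ} (hxy : x ≤ y) (hy : y ≤ 1) : w x ≤ w y := by
  rcases le_total x 0 with hx | hx
  · rw [w_of_nonpos hx]; exact w_nonneg y
  · rw [w_of_nonneg hx, w_of_nonneg (hx.trans hxy)]
    have h1 : exp (-x) = exp (-y) * exp (y - x) := by rw [← exp_add]; ring_nf
    have h2 : exp (y - x) * (1 - (y - x)) ≤ 1 := by
      have := add_one_le_exp (-(y - x))
      have h3 : exp (y - x) * exp (-(y - x)) = 1 := by rw [← exp_add]; simp
      nlinarith [exp_pos (y - x)]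
    -- x * exp (y - x) ≤ y
    have h4 : x * exp (y - x) ≤ y := by
      have h5 : x ≤ y * (1 - (y - x)) := by nlinarith
      have h6 : 0 ≤ y := hx.trans hxy
      calc x * exp (y - x) ≤ y * (1 - (y - x)) * exp (y - x) :=
            mul_le_mul_of_nonneg_right h5 (exp_pos _).le
        _ = y * (exp (y - x) * (1 - (y - x))) := by ring
        _ ≤ y * 1 := mul_le_mul_of_nonneg_left h2 h6
        _ = y := mul_one _
    rw [h1]
    nlinarith [exp_pos (-y)]

lemma w_anti {x y : ℝ} (hx : 1 ≤ x) (hxy : x ≤ y) : w y ≤ w x := by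
  rw [w_of_nonneg (by linarith), w_of_nonneg (by linarith)]
  have h1 : exp (-x) = exp (-y) * exp (y - x) := by rw [← exp_add]; ring_nf
  have h2 := add_one_le_exp (y - x)
  have h4 : y ≤ x * exp (y - x) := by nlinarith
  rw [h1]
  nlinarith [exp_pos (-y)]

/-- `∫_c^∞ y e^{-l y} dy`. -/
lemma int_mul_exp {l : ℝ} (hl : 0 < l) {c : ℝ} (hc : 0 ≤ c) :
    IntegrableOn (fun y => y * exp (-(l * y))) (Ioi c) ∧
    ∫ y in Ioi c, y * exp (-(l * y)) = (c / l + 1 / l ^ 2) * exp (-(l * c)) := by
  have hd : ∀ x ∈ Ici c, HasDerivAt (fun y => -((y / l + 1 / l ^ 2) * exp (-(l * y))))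
      (x * exp (-(l * x))) x := by
    intro x _
    have h1 : HasDerivAt (fun y => y / l + 1 / l ^ 2) (1 / l) x :=
      ((hasDerivAt_id x).div_const l).add_const _
    have h2 : HasDerivAt (fun y => exp (-(l * y))) (exp (-(l * x)) * (-(l * 1))) x :=
      (((hasDerivAt_id x).const_mul l).neg).exp
    refine ((h1.mul h2).neg).congr_deriv ?_
    field_simp
    ring
  have hpos : ∀ x ∈ Ioi c, 0 ≤ x * exp (-(l * x)) := fun x hx =>
    mul_nonneg (hc.trans (le_of_lt hx)) (exp_pos _).le
  have ht : Tendsto (fun y => -((y / l + 1 / l ^ 2) * exp (-(l * y)))) atTop (𝓝 0) := by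
    have hl' : Tendsto (fun y : ℝ => l * y) atTop atTop := tendsto_id.const_mul_atTop hl
    have t1 : Tendsto (fun y : ℝ => (l * y) ^ 1 * exp (-(l * y))) atTop (𝓝 0) :=
      (tendsto_pow_mul_exp_neg_atTop_nhds_zero 1).comp hl'
    have t2 : Tendsto (fun y : ℝ => exp (-(l * y))) atTop (𝓝 0) :=
      tendsto_exp_neg_atTop_nhds_zero.comp hl'
    have t3 := ((t1.const_mul (1 / l ^ 2)).add (t2.const_mul (1 / l ^ 2))).neg
    simp only [mul_zero, add_zero, neg_zero] at t3
    refine t3.congr (fun y => ?_)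
    field_simp
  refine ⟨integrableOn_Ioi_deriv_of_nonneg' hd hpos ht, ?_⟩
  rw [integral_Ioi_of_hasDerivAt_of_nonneg' hd hpos ht]
  ring

lemma w_integrable : Integrable w := by
  rw [← integrableOn_univ, ← Iic_union_Ioi (a := (0 : ℝ))]
  refine IntegrableOn.union ?_ ?_
  · exact (integrableOn_zero).congr_fun (fun y hy => (w_of_nonpos hy).symm) measurableSet_Iic
  · refine ((int_mul_exp one_pos le_rfl).1).congr_fun (fun y hy => ?_) measurableSet_Ioi
    simp only [one_mul]
    exact (w_of_nonneg (le_of_lt hy)).symm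

lemma int_w_Ioi {c : ℝ} (hc : 0 ≤ c) : ∫ y in Ioi c, w y = (c + 1) * exp (-c) := by
  have := (int_mul_exp one_pos hc).2
  simp only [one_mul, div_one, one_pow] at this
  rw [← this]
  exact setIntegral_congr_fun measurableSet_Ioi (fun y hy => w_of_nonneg (hc.trans (le_of_lt hy)))

lemma int_w_Iic_zero {c : ℝ} (hc : c ≤ 0) : ∫ y in Iic c, w y = 0 :=
  setIntegral_eq_zero_of_forall_eq_zero (fun _ hy => w_of_nonpos (le_trans hy hc))

lemma int_w : ∫ y, w y = 1 := by
  rw [← setIntegral_univ, ← Iic_union_Ioi (a := (0 : ℝ)),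
    setIntegral_union (Iic_disjoint_Ioi le_rfl) measurableSet_Ioi w_integrable.integrableOn
      w_integrable.integrableOn, int_w_Iic_zero le_rfl, int_w_Ioi le_rfl]
  simp

lemma int_w_Iic {c : ℝ} (hc : 0 ≤ c) : ∫ y in Iic c, w y = 1 - (c + 1) * exp (-c) := by
  have := setIntegral_union (Iic_disjoint_Ioi (le_refl c)) measurableSet_Ioi
    w_integrable.integrableOn w_integrable.integrableOn
  rw [Iic_union_Ioi, setIntegral_univ, int_w, int_w_Ioi hc] at this
  linarith

lemma cmp_cont (a b : ℝ) : Continuous (cmp a b) := by unfold cmp; fun_prop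

lemma cmp_pos (a b y : ℝ) : 0 < cmp a b y := lt_min one_pos (exp_pos _)

lemma cmp_le_one (a b y : ℝ) : cmp a b y ≤ 1 := min_le_left _ _

lemma cmp_of_le {a b y : ℝ} (ha : 0 < a) (hy : y ≤ b) : cmp a b y = 1 := by
  unfold cmp
  apply min_eq_left
  apply one_le_exp
  have : (y - b) / a ≤ 0 := div_nonpos_of_nonpos_of_nonneg (by linarith) ha.le
  linarith

lemma cmp_of_ge {a b y : ℝ} (ha : 0 < a) (hy : b ≤ y) : cmp a b y = exp (-((y - b) / a)) := by
  unfold cmp
  apply min_eq_right
  apply exp_le_one_iff.2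
  have : 0 ≤ (y - b) / a := div_nonneg (by linarith) ha.le
  linarith

lemma cmp_anti {a b : ℝ} (ha : 0 < a) {x y : ℝ} (hxy : x ≤ y) : cmp a b y ≤ cmp a b x := by
  unfold cmp
  apply min_le_min le_rfl
  apply exp_le_exp.2
  have : (x - b) / a ≤ (y - b) / a := div_le_div_of_nonneg_right (by linarith) ha.le
  linarith

lemma w_mul_integrable {G : ℝ → ℝ} (hG : AEStronglyMeasurable G volume) (h0 : ∀ y, 0 ≤ G y)
    (h1 : ∀ y, G y ≤ 1) : Integrable (fun y => w y * G y) := by
  refine w_integrable.mul_bdd (c := 1) hG (Eventually.of_forall fun y => ?_)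
  rw [Real.norm_eq_abs, abs_of_nonneg (h0 y)]; exact h1 y

/-- The tail part of `∫ w * cmp`. -/
lemma int_w_cmp_Ioi {a b c : ℝ} (ha : 0 < a) (hc : 0 ≤ c) (hbc : b ≤ c) :
    ∫ y in Ioi c, w y * cmp a b y =
      exp (b / a) * ((c / (1 + 1 / a) + 1 / (1 + 1 / a) ^ 2) * exp (-((1 + 1 / a) * c))) := by
  have hl : 0 < 1 + 1 / a := by positivity
  rw [← (int_mul_exp hl hc).2, ← integral_const_mul]
  refine setIntegral_congr_fun measurableSet_Ioi (fun y hy => ?_)
  have hy' : c < y := hy
  rw [w_of_nonneg (by linarith), cmp_of_ge ha (by linarith), mul_assoc, ← exp_add,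
    mul_left_comm, ← exp_add]
  congr 2
  field_simp
  ring

lemma exp_third : exp (-(1 / 3)) ≤ 18 / 25 := by
  have h : 1 + (1 / 3 : ℝ) + (1 / 3) ^ 2 / 2 ≤ exp (1 / 3) :=
    quadratic_le_exp_of_nonneg (by norm_num)
  rw [exp_neg, inv_le_comm₀ (exp_pos _) (by norm_num)]
  norm_num at h ⊢
  linarith

lemma cubic_le_exp {x : ℝ} (hx : 0 ≤ x) : 1 + x + x ^ 2 / 2 + x ^ 3 / 6 ≤ exp x := by
  have := Real.sum_le_exp_of_nonneg hx 4
  simp [Finset.sum_range_succ, Nat.factorial] at this
  linarith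

/-- The extremal problem among shifted exponentials with mean `4/3`. -/
lemma phi_lower {a : ℝ} (ha : 0 < a) :
    4 / 9 * exp (-(1 / 3)) ≤ ∫ y, w y * cmp a (4 / 3 - a) y := by
  have hint : Integrable (fun y => w y * cmp a (4 / 3 - a) y) :=
    w_mul_integrable (cmp_cont _ _).aestronglyMeasurable (fun y => (cmp_pos _ _ y).le)
      (cmp_le_one _ _)
  rcases le_total (4 / 3 - a) 0 with hb | hb
  · rw [← setIntegral_univ, ← Iic_union_Ioi (a := (0 : ℝ)),
      setIntegral_union (Iic_disjoint_Ioi le_rfl) measurableSet_Ioi hint.integrableOn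
        hint.integrableOn, int_w_cmp_Ioi ha le_rfl hb,
      setIntegral_eq_zero_of_forall_eq_zero (fun y hy => by rw [w_of_nonpos hy, zero_mul])]
    simp only [zero_div, zero_add, mul_zero, neg_zero, exp_zero, mul_one]
    have h1 : exp ((4 / 3 - a) / a) = exp (-(1 / 3)) * exp (2 / (3 * a) - 1 / 3) ^ 2 := by
      rw [sq, ← exp_add, ← exp_add]; congr 1; field_simp; ring
    have h2 : 2 / 3 * (1 + 1 / a) ≤ exp (2 / (3 * a) - 1 / 3) := by
      have := add_one_le_exp (2 / (3 * a) - 1 / 3)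
      have h3 : 2 / 3 * (1 + 1 / a) = 2 / (3 * a) - 1 / 3 + 1 := by field_simp; ring
      linarith
    have hl : 0 < 1 + 1 / a := by positivity
    have h4 : (2 / 3 * (1 + 1 / a)) ^ 2 ≤ exp (2 / (3 * a) - 1 / 3) ^ 2 :=
      pow_le_pow_left₀ (by positivity) h2 2
    rw [h1, mul_assoc, mul_comm (4 / 9 : ℝ)]
    apply mul_le_mul_of_nonneg_left _ (exp_pos _).le
    rw [mul_one_div, le_div_iff₀ (by positivity)]
    linarith
  · set b := 4 / 3 - a with hbdef
    rw [← setIntegral_univ, ← Iic_union_Ioi (a := b),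
      setIntegral_union (Iic_disjoint_Ioi le_rfl) measurableSet_Ioi hint.integrableOn
        hint.integrableOn, int_w_cmp_Ioi ha hb le_rfl,
      setIntegral_congr_fun (g := w) measurableSet_Iic
        (fun y hy => by rw [cmp_of_le ha hy, mul_one]), int_w_Iic hb]
    have h1 : exp (b / a) * ((b / (1 + 1 / a) + 1 / (1 + 1 / a) ^ 2) * exp (-((1 + 1 / a) * b)))
        = (b * a / (1 + a) + a ^ 2 / (1 + a) ^ 2) * exp (-b) := by
      rw [mul_left_comm, ← exp_add]
      congr 1
      · field_simp; ring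
      · congr 1; field_simp; ring
    rw [h1]
    have h2 : 1 - (b + 1) * exp (-b) + (b * a / (1 + a) + a ^ 2 / (1 + a) ^ 2) * exp (-b)
        = 1 - (1 + 2 * a + b * (1 + a)) / (1 + a) ^ 2 * exp (-b) := by
      field_simp; ring
    rw [h2]
    have h3 := cubic_le_exp hb
    have h4 : (1 + 2 * a + b * (1 + a)) / (1 + a) ^ 2 * exp (-b) ≤ 17 / 25 := by
      rw [exp_neg, ← div_eq_mul_inv, div_le_iff₀ (exp_pos _), div_le_iff₀ (by positivity)]
      have h5 : 1 + 2 * a + b * (1 + a)
          ≤ 17 / 25 * (1 + b + b ^ 2 / 2 + b ^ 3 / 6) * (1 + a) ^ 2 := by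
        have hab : a = 4 / 3 - b := by rw [hbdef]; ring
        have hb2 : b ≤ 4 / 3 := by linarith
        rw [hab]
        nlinarith [mul_nonneg hb (sub_nonneg.2 hb2), mul_nonneg (mul_nonneg hb hb) (sub_nonneg.2 hb2), mul_nonneg (mul_nonneg hb (sub_nonneg.2 hb2)) (sub_nonneg.2 hb2), sq_nonneg b, sq_nonneg (b - 1), pow_nonneg hb 3, pow_nonneg hb 4, pow_nonneg hb 5]
      have h6 : 17 / 25 * (1 + b + b ^ 2 / 2 + b ^ 3 / 6) * (1 + a) ^ 2
          ≤ 17 / 25 * exp b * (1 + a) ^ 2 := by gcongr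
      linarith
    linarith [exp_third]

/-- Midpoint log-concavity plus a positive lower bound gives quasi-concavity at level one. -/
lemma one_le_of_midpoint {ρ : ℝ → ℝ} (h0 : ∀ y, 0 ≤ ρ y)
    (hmid : ∀ x d, 0 ≤ d → ρ (x - d) * ρ (x + d) ≤ ρ x ^ 2)
    {p q : ℝ} (hp : 1 ≤ ρ p) (hq : 1 ≤ ρ q) {r₀ : ℝ} (hr₀ : 0 < r₀)
    (hlow : ∀ z ∈ Icc p q, r₀ ≤ ρ z) {z : ℝ} (hz : z ∈ Icc p q) : 1 ≤ ρ z := by
  set r := sInf (ρ '' Icc p q) with hr
  have hne : (ρ '' Icc p q).Nonempty := ⟨ρ z, z, hz, rfl⟩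
  have hbdd : BddBelow (ρ '' Icc p q) := ⟨0, by rintro _ ⟨y, -, rfl⟩; exact h0 y⟩
  have hrle : ∀ y ∈ Icc p q, r ≤ ρ y := fun y hy => csInf_le hbdd ⟨y, hy, rfl⟩
  have hrpos : 0 < r := lt_of_lt_of_le hr₀ (le_csInf hne (by rintro _ ⟨y, hy, rfl⟩; exact hlow y hy))
  have hsq : ∀ y ∈ Icc p q, r ≤ ρ y ^ 2 := by
    intro y hy
    rcases le_total (y - p) (q - y) with h | h
    · have h1 := hmid y (y - p) (by linarith [hy.1])
      have h2 : r ≤ ρ (y + (y - p)) := hrle _ ⟨by linarith [hy.1], by linarith⟩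
      rw [show y - (y - p) = p by ring] at h1
      nlinarith
    · have h1 := hmid y (q - y) (by linarith [hy.2])
      have h2 : r ≤ ρ (y - (q - y)) := hrle _ ⟨by linarith, by linarith [hy.2]⟩
      rw [show y + (q - y) = q by ring] at h1
      nlinarith
  have hsqrt : √r ≤ r := by
    refine le_csInf hne ?_
    rintro _ ⟨y, hy, rfl⟩
    exact Real.sqrt_le_iff.2 ⟨h0 y, hsq y hy⟩
  have h1 : 1 ≤ r := by
    have h2 : √r * √r = r := Real.mul_self_sqrt hrpos.le
    have h3 : 0 < √r := Real.sqrt_pos.2 hrpos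
    have h4 : 1 ≤ √r := by nlinarith
    linarith
  exact h1.trans (hrle z hz)

lemma step_of_le {y : ℝ} (hy : y ≤ 1) : step y = 1 := by unfold step; rw [if_pos hy]

lemma step_of_gt {y : ℝ} (hy : 1 < y) : step y = 0 := by unfold step; rw [if_neg (not_le.2 hy)]

lemma cmp_Ioi {a b : ℝ} (ha : 0 < a) {c : ℝ} (hc : b ≤ c) :
    IntegrableOn (cmp a b) (Ioi c) ∧ ∫ y in Ioi c, cmp a b y = a * exp (-((c - b) / a)) := by
  have hneg : -(1 / a) < 0 := by have : 0 < 1 / a := by positivity
                                 linarith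
  have heq : ∀ y ∈ Ioi c, exp (b / a) * exp (-(1 / a) * y) = cmp a b y := by
    intro y hy
    have hy' : c < y := hy
    rw [cmp_of_ge ha (by linarith), ← exp_add]
    congr 1; field_simp; ring
  refine ⟨((integrableOn_exp_mul_Ioi hneg c).const_mul (exp (b / a))).congr ?_, ?_⟩
  · exact (ae_restrict_iff' measurableSet_Ioi).2 (Eventually.of_forall heq)
  · rw [← setIntegral_congr_fun measurableSet_Ioi heq, integral_const_mul,
      integral_exp_mul_Ioi hneg c]
    have : exp (-((c - b) / a)) = exp (b / a) * exp (-(1 / a) * c) := by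
      rw [← exp_add]; congr 1; field_simp; ring
    rw [this]; field_simp

lemma cmp_sub_step {a b : ℝ} (ha : 0 < a) (hb : b ≤ 1) :
    Integrable (fun y => cmp a b y - step y) ∧ ∫ y, (cmp a b y - step y) = a + b - 1 := by
  have h1 : EqOn (fun y => cmp a b y - step y) (fun _ => 0) (Iic b) := by
    intro y hy
    have hy' : y ≤ b := hy
    simp only
    rw [cmp_of_le ha hy', step_of_le (hy'.trans hb), sub_self]
  have h2 : EqOn (fun y => cmp a b y - step y) (fun y => cmp a b y - (Ioc b 1).indicator 1 y)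
      (Ioi b) := by
    intro y hy
    have hy' : b < y := hy
    simp only
    rcases le_or_gt y 1 with h | h
    · rw [step_of_le h, indicator_of_mem (show y ∈ Ioc b 1 from ⟨hy', h⟩)]; rfl
    · rw [step_of_gt h, indicator_of_notMem (fun hh => absurd hh.2 (not_le.2 h))]
  have h3 : Integrable ((Ioc b 1).indicator (1 : ℝ → ℝ)) := by
    rw [integrable_indicator_iff measurableSet_Ioc]
    exact integrableOn_const (by simp)
  have i1 : IntegrableOn (fun y => cmp a b y - step y) (Iic b) :=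
    (integrableOn_zero).congr_fun h1.symm measurableSet_Iic
  have i2 : IntegrableOn (fun y => cmp a b y - step y) (Ioi b) :=
    IntegrableOn.congr_fun ((cmp_Ioi ha le_rfl).1.sub h3.integrableOn) h2.symm measurableSet_Ioi
  refine ⟨?_, ?_⟩
  · rw [← integrableOn_univ, ← Iic_union_Ioi (a := b)]
    exact i1.union i2
  · rw [← setIntegral_univ, ← Iic_union_Ioi (a := b),
      setIntegral_union (Iic_disjoint_Ioi le_rfl) measurableSet_Ioi i1 i2,
      setIntegral_congr_fun measurableSet_Iic h1, setIntegral_congr_fun measurableSet_Ioi h2,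
      integral_sub (cmp_Ioi ha le_rfl).1 h3.integrableOn, (cmp_Ioi ha le_rfl).2,
      integral_indicator measurableSet_Ioc]
    simp only [integral_zero, sub_self, zero_div, neg_zero, exp_zero, mul_one, zero_add,
      Pi.one_apply, integral_const, smul_eq_mul]
    rw [Measure.restrict_restrict measurableSet_Ioc, inter_eq_left.2 Ioc_subset_Ioi_self]
    simp [hb]
    ring

/-- One side of the comparison. -/
lemma side_nonneg {D : ℝ → ℝ} {s : Set ℝ} (hs : MeasurableSet s) (hD : IntegrableOn D s)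
    (hwD : IntegrableOn (fun y => w y * D y) s) (h0 : ∫ y in s, D y = 0) {c : ℝ}
    (hc : ∀ y ∈ s, 0 ≤ (w y - c) * D y) : 0 ≤ ∫ y in s, w y * D y := by
  have h1 : ∫ y in s, (w y - c) * D y = ∫ y in s, w y * D y := by
    have : (fun y => (w y - c) * D y) = fun y => w y * D y - c * D y := by
      funext y; ring
    rw [this, integral_sub hwD (hD.const_mul c), integral_const_mul, h0]
    ring
  rw [← h1]
  exact setIntegral_nonneg hs hc

lemma not_int_zero {D : ℝ → ℝ} {s : Set ℝ} (hs : MeasurableSet s) (hD : IntegrableOn D s)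
    (hle : ∀ y ∈ s, D y ≤ 0) {p q : ℝ} (hpq : p < q) (hsub : Ioo p q ⊆ s)
    (hlt : ∀ y ∈ Ioo p q, D y < 0) : ∫ y in s, D y ≠ 0 := by
  have h1 : 0 < ∫ y in s, -D y := by
    have hneg : IntegrableOn (fun y => -D y) s := hD.neg
    rw [setIntegral_pos_iff_support_of_nonneg_ae _ hneg]
    · refine lt_of_lt_of_le ?_ (measure_mono (show Ioo p q ⊆ _ from fun y hy => ⟨?_, hsub hy⟩))
      · simp [hpq]
      · simp only [Function.mem_support, ne_eq, neg_eq_zero]
        exact (hlt y hy).ne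
    · exact (ae_restrict_iff' hs).2 (Eventually.of_forall fun y hy => by
        simpa using hle y hy)
  rw [integral_neg] at h1
  intro h
  rw [h] at h1
  simp at h1

/-- The main comparison lemma. -/
theorem main_analysis {G : ℝ → ℝ} (hanti : Antitone G) (h0 : ∀ y, 0 ≤ G y) (h1 : ∀ y, G y ≤ 1)
    (hmid : ∀ x d, 0 ≤ d → G (x - d) * G (x + d) ≤ G x ^ 2)
    (hleft : ∀ θ, G 1 < θ → ∃ z < 1, G z < θ)
    (hint : Integrable (fun y => G y - step y)) (hmean : ∫ y, (G y - step y) = 1 / 3) :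
    4 / 9 * exp (-(1 / 3)) ≤ ∫ y, w y * G y := by
  have hsplit : ∀ {f : ℝ → ℝ}, Integrable f →
      ∫ y, f y = (∫ y in Iic 1, f y) + ∫ y in Ioi 1, f y := by
    intro f hf
    rw [← setIntegral_union (Iic_disjoint_Ioi le_rfl) measurableSet_Ioi hf.integrableOn
      hf.integrableOn, Iic_union_Ioi, setIntegral_univ]
  set A := ∫ y in Ioi 1, (G y - step y) with hA
  have hA3 : 1 / 3 ≤ A := by
    have h2 := hsplit hint
    have h3 : ∫ y in Iic 1, (G y - step y) ≤ 0 :=
      setIntegral_nonpos measurableSet_Iic (fun y hy => by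
        rw [step_of_le hy]; linarith [h1 y])
    linarith
  -- choose the comparison parameter
  obtain ⟨a, ha, hψ⟩ : ∃ a ∈ Icc (1 / 3 : ℝ) (3 * A),
      a * exp (-((1 - (4 / 3 - a)) / a)) = A := by
    have hc : ContinuousOn (fun a : ℝ => a * exp (-((1 - (4 / 3 - a)) / a)))
        (Icc (1 / 3 : ℝ) (3 * A)) := by
      refine continuousOn_id.mul (ContinuousOn.rexp (ContinuousOn.neg (ContinuousOn.div
        (by fun_prop) continuousOn_id (fun x hx => ?_))))
      have := hx.1
      positivity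
    refine intermediate_value_Icc (by linarith) hc ⟨?_, ?_⟩
    · norm_num; linarith
    · have hApos : 0 < A := by linarith
      have h2 : (1 - (4 / 3 - 3 * A)) / (3 * A) ≤ 1 := by
        rw [div_le_one (by positivity)]; linarith
      have h3 : exp (-1) ≤ exp (-((1 - (4 / 3 - 3 * A)) / (3 * A))) := exp_le_exp.2 (by linarith)
      have h4 : 1 / 3 ≤ exp (-1) := by
        rw [exp_neg, one_div]
        exact inv_anti₀ (exp_pos _) (by linarith [exp_one_lt_d9])
      show A ≤ 3 * A * exp (-((1 - (4 / 3 - 3 * A)) / (3 * A)))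
      nlinarith
  have hapos : 0 < a := by linarith [ha.1]
  set b := 4 / 3 - a with hbdef
  have hb : b ≤ 1 := by linarith [ha.1]
  obtain ⟨hcint, hcmean⟩ := cmp_sub_step hapos hb
  set D : ℝ → ℝ := fun y => G y - cmp a b y with hD
  have hDeq : D = fun y => (G y - step y) - (cmp a b y - step y) := by
    funext y; simp only [hD]; ring
  have hDint : Integrable D := by rw [hDeq]; exact hint.sub hcint
  have hDtot : ∫ y, D y = 0 := by
    rw [hDeq, integral_sub hint hcint, hmean, hcmean, hbdef]; ring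
  have hDright : ∫ y in Ioi 1, D y = 0 := by
    rw [hDeq, integral_sub hint.integrableOn hcint.integrableOn, ← hA,
      setIntegral_congr_fun (g := cmp a b) measurableSet_Ioi
        (fun y hy => by rw [step_of_gt hy, sub_zero]), (cmp_Ioi hapos hb).2, hψ, sub_self]
  have hDleft : ∫ y in Iic 1, D y = 0 := by
    have := hsplit hDint
    linarith
  -- the ratio function
  set ρ : ℝ → ℝ := fun y => G y * exp ((y - b) / a) with hρ
  have hρ0 : ∀ y, 0 ≤ ρ y := fun y => mul_nonneg (h0 y) (exp_pos _).le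
  have hρmid : ∀ x d, 0 ≤ d → ρ (x - d) * ρ (x + d) ≤ ρ x ^ 2 := by
    intro x d hd
    have he : exp ((x - d - b) / a) * exp ((x + d - b) / a) = exp ((x - b) / a) ^ 2 := by
      rw [sq, ← exp_add, ← exp_add]; congr 1; ring
    calc ρ (x - d) * ρ (x + d)
        = (G (x - d) * G (x + d)) * (exp ((x - d - b) / a) * exp ((x + d - b) / a)) := by
          simp only [hρ]; ring
      _ ≤ G x ^ 2 * exp ((x - b) / a) ^ 2 := by
          rw [he]; exact mul_le_mul_of_nonneg_right (hmid x d hd) (by positivity)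
      _ = ρ x ^ 2 := by simp only [hρ]; ring
  have hconn : ∀ p q z, 1 ≤ ρ p → 1 ≤ ρ q → p ≤ z → z ≤ q → 1 ≤ ρ z := by
    intro p q z hp hq hpz hzq
    have hGq : 0 < G q := by
      rcases (h0 q).eq_or_lt with h | h
      · exfalso; simp only [hρ] at hq; rw [← h] at hq; linarith
      · exact h
    refine one_le_of_midpoint hρ0 hρmid hp hq (r₀ := G q * exp ((p - b) / a))
      (mul_pos hGq (exp_pos _)) (fun y hy => ?_) ⟨hpz, hzq⟩
    refine mul_le_mul (hanti hy.2) (exp_le_exp.2 ?_) (exp_pos _).le (h0 y)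
    exact div_le_div_of_nonneg_right (by linarith [hy.1]) hapos.le
  have hGρ : ∀ y, G y = ρ y * exp (-((y - b) / a)) := by
    intro y
    simp only [hρ]
    rw [mul_assoc, ← exp_add]; simp
  have hDpos : ∀ y, 1 ≤ ρ y → 0 ≤ D y := by
    intro y hy
    have h2 : cmp a b y ≤ exp (-((y - b) / a)) := min_le_right _ _
    have h3 := hGρ y
    have h4 := exp_pos (-((y - b) / a))
    simp only [hD]
    nlinarith
  have hDneg : ∀ y, ρ y < 1 → D y ≤ 0 := by
    intro y hy
    have h3 := hGρ y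
    have h4 := exp_pos (-((y - b) / a))
    have h5 : G y ≤ cmp a b y := le_min (h1 y) (by nlinarith)
    simp only [hD]
    linarith
  have hDneg' : ∀ y, b ≤ y → ρ y < 1 → D y < 0 := by
    intro y hby hy
    have h3 := hGρ y
    have h4 := exp_pos (-((y - b) / a))
    simp only [hD]
    rw [cmp_of_ge hapos hby]
    nlinarith
  have hone : 1 ≤ ρ 1 := by
    by_contra hlt
    push Not at hlt
    by_cases hex : ∃ q, 1 < q ∧ 1 ≤ ρ q
    · obtain ⟨q, hq1, hq⟩ := hex
      have hall : ∀ y ≤ 1, ρ y < 1 := by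
        intro y hy
        by_contra hge
        push Not at hge
        exact absurd (hconn y q 1 hge hq hy hq1.le) (not_le.2 hlt)
      have hD1 := hDneg' 1 hb hlt
      obtain ⟨z, hz1, hz⟩ := hleft (cmp a b 1) (by simp only [hD] at hD1; linarith)
      refine not_int_zero measurableSet_Iic hDint.integrableOn (fun y hy => hDneg y (hall y hy))
        hz1 (fun y hy => le_of_lt hy.2) (fun y hy => ?_) hDleft
      have h2 : G y ≤ G z := hanti hy.1.le
      have h3 : cmp a b 1 ≤ cmp a b y := cmp_anti hapos hy.2.le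
      simp only [hD]
      linarith
    · push Not at hex
      refine not_int_zero measurableSet_Ioi hDint.integrableOn (fun y hy => hDneg y (hex y hy))
        (show (1 : ℝ) < 2 by norm_num) (fun y hy => hy.1)
        (fun y hy => hDneg' y (hb.trans hy.1.le) (hex y hy.1)) hDright
  have hGint : Integrable (fun y => w y * G y) :=
    w_mul_integrable hanti.measurable.aestronglyMeasurable h0 h1
  have hCint : Integrable (fun y => w y * cmp a b y) :=
    w_mul_integrable (cmp_cont _ _).aestronglyMeasurable (fun y => (cmp_pos _ _ y).le)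
      (cmp_le_one _ _)
  have hwDeq : (fun y => w y * D y) = fun y => w y * G y - w y * cmp a b y := by
    funext y; simp only [hD]; ring
  have hwD : Integrable (fun y => w y * D y) := by rw [hwDeq]; exact hGint.sub hCint
  have hL : 0 ≤ ∫ y in Iic 1, w y * D y := by
    set T := w '' {y | y ≤ 1 ∧ 1 ≤ ρ y} with hT
    have hne : T.Nonempty := ⟨w 1, 1, ⟨le_rfl, hone⟩, rfl⟩
    have hbdd : BddBelow T := ⟨0, by rintro _ ⟨y, -, rfl⟩; exact w_nonneg y⟩
    refine side_nonneg measurableSet_Iic hDint.integrableOn hwD.integrableOn hDleft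
      (c := sInf T) (fun y hy => ?_)
    have hy' : y ≤ 1 := hy
    rcases le_or_gt 1 (ρ y) with h | h
    · exact mul_nonneg (sub_nonneg.2 (csInf_le hbdd ⟨y, ⟨hy', h⟩, rfl⟩)) (hDpos y h)
    · refine mul_nonneg_of_nonpos_of_nonpos (sub_nonpos.2 (le_csInf hne ?_)) (hDneg y h)
      rintro _ ⟨j, ⟨hj1, hj⟩, rfl⟩
      rcases le_total y j with h2 | h2
      · exact w_mono h2 hj1
      · exact absurd (hconn j 1 y hj hone h2 hy') (not_le.2 h)
  have hR : 0 ≤ ∫ y in Ioi 1, w y * D y := by
    set T := w '' {y | 1 ≤ y ∧ 1 ≤ ρ y} with hT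
    have hne : T.Nonempty := ⟨w 1, 1, ⟨le_rfl, hone⟩, rfl⟩
    have hbdd : BddBelow T := ⟨0, by rintro _ ⟨y, -, rfl⟩; exact w_nonneg y⟩
    refine side_nonneg measurableSet_Ioi hDint.integrableOn hwD.integrableOn hDright
      (c := sInf T) (fun y hy => ?_)
    have hy' : 1 ≤ y := le_of_lt hy
    rcases le_or_gt 1 (ρ y) with h | h
    · exact mul_nonneg (sub_nonneg.2 (csInf_le hbdd ⟨y, ⟨hy', h⟩, rfl⟩)) (hDpos y h)
    · refine mul_nonneg_of_nonpos_of_nonpos (sub_nonpos.2 (le_csInf hne ?_)) (hDneg y h)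
      rintro _ ⟨j, ⟨hj1, hj⟩, rfl⟩
      rcases le_total j y with h2 | h2
      · exact w_anti hj1 h2
      · exact absurd (hconn 1 j y hone hj hy' h2) (not_le.2 h)
  have hfin : 0 ≤ ∫ y, w y * D y := by rw [hsplit hwD]; linarith
  rw [hwDeq, integral_sub hGint hCint] at hfin
  linarith [phi_lower hapos]

end Crest.Agent.R280
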