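import Mathlib
import Crest.Agent.R280.Analysis

/-!
Row 280 (S0423): survival functions of linear forms in independent exponentials.
-/

set_option autoImplicit false

open MeasureTheory Set Real Filter Topology
open scoped ENNReal

namespace Crest.Agent.R280

/-- Survival function of a probability measure on the line. -/
noncomputable def surv (ν : Measure ℝ) (y : ℝ) : ℝ := ν.real (Ici y)

section general

variable (ν : Measure ℝ) [IsProbabilityMeasure ν]

lemma surv_anti : Antitone (surv ν) := fun _ _ h => measureReal_mono (Ici_subset_Ici.2 h)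

omit [IsProbabilityMeasure ν] in
lemma surv_nonneg (y : ℝ) : 0 ≤ surv ν y := measureReal_nonneg

lemma surv_le_one (y : ℝ) : surv ν y ≤ 1 := measureReal_le_one

lemma surv_left (θ : ℝ) (h : surv ν 1 < θ) : ∃ z < 1, surv ν z < θ := by
  have h1 : Tendsto (fun n : ℕ => ν (Ici (1 - 1 / ((n : ℝ) + 1)))) atTop
      (𝓝 (ν (⋂ n : ℕ, Ici (1 - 1 / ((n : ℝ) + 1))))) := by
    refine tendsto_measure_iInter_atTop (fun n => measurableSet_Ici.nullMeasurableSet) ?_
      ⟨0, measure_ne_top _ _⟩
    intro m n hmn
    apply Ici_subset_Ici.2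
    have : (1 : ℝ) / (n + 1) ≤ 1 / (m + 1) := Nat.one_div_le_one_div hmn
    linarith
  have h2 : (⋂ n : ℕ, Ici (1 - 1 / ((n : ℝ) + 1))) = Ici 1 := by
    ext y
    simp only [mem_iInter, mem_Ici]
    constructor
    · intro hy
      by_contra hlt
      push Not at hlt
      obtain ⟨n, hn⟩ := exists_nat_one_div_lt (sub_pos.2 hlt)
      linarith [hy n]
    · intro hy n
      have : (0 : ℝ) < 1 / (n + 1) := Nat.one_div_pos_of_nat
      linarith
  rw [h2] at h1
  have h3 := (ENNReal.tendsto_toReal (measure_ne_top ν _)).comp h1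
  obtain ⟨n, hn⟩ := (h3.eventually (gt_mem_nhds h)).exists
  refine ⟨1 - 1 / ((n : ℝ) + 1), ?_, hn⟩
  have : (0 : ℝ) < 1 / (n + 1) := Nat.one_div_pos_of_nat
  linarith

lemma int_cdf_eq : ∫ s, (∫ y in Iic s, w y) ∂ν = ∫ y, w y * surv ν y := by
  have hm : MeasurableSet {p : ℝ × ℝ | p.2 ≤ p.1} := measurableSet_le measurable_snd measurable_fst
  have hint : Integrable (Function.uncurry fun (s y : ℝ) =>
      ({p : ℝ × ℝ | p.2 ≤ p.1}.indicator (fun p => w p.2) (s, y))) (ν.prod volume) := by
    have : Integrable (fun p : ℝ × ℝ => w p.2) (ν.prod volume) := w_integrable.comp_snd ν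
    exact this.indicator hm
  have h := integral_integral_swap hint
  have h1 : ∀ s : ℝ, ∫ y, ({p : ℝ × ℝ | p.2 ≤ p.1}.indicator (fun p => w p.2) (s, y))
      = ∫ y in Iic s, w y := by
    intro s
    rw [← integral_indicator measurableSet_Iic]
    rfl
  have h2 : ∀ y : ℝ, ∫ s, ({p : ℝ × ℝ | p.2 ≤ p.1}.indicator (fun p => w p.2) (s, y)) ∂ν
      = w y * surv ν y := by
    intro y
    have : (fun s => ({p : ℝ × ℝ | p.2 ≤ p.1}.indicator (fun p => w p.2) (s, y)))
        = (Ici y).indicator (fun _ => w y) := rfl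
    rw [this, integral_indicator measurableSet_Ici, setIntegral_const, smul_eq_mul, mul_comm]
    rfl
  simp only [h1, h2] at h
  exact h

/-- The kernel `1[y ≤ s] - 1[y ≤ 1]`. -/
noncomputable def ker (s y : ℝ) : ℝ := (if y ≤ s then 1 else 0) - step y

lemma ker_eq (s : ℝ) : ker s = fun y => (Ioc 1 s).indicator 1 y - (Ioc s 1).indicator 1 y := by
  funext y
  unfold ker step
  by_cases h1 : y ≤ s <;> by_cases h2 : y ≤ 1 <;>
    simp [indicator, h1, h2, not_le.1, not_lt.2]

lemma ind_integrable (p q : ℝ) : Integrable ((Ioc p q).indicator (1 : ℝ → ℝ)) := by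
  rw [integrable_indicator_iff measurableSet_Ioc]
  exact integrableOn_const (by simp)

lemma ind_integral (p q : ℝ) : ∫ y, (Ioc p q).indicator (1 : ℝ → ℝ) y = max (q - p) 0 := by
  rw [integral_indicator measurableSet_Ioc]
  simp

lemma ker_integrable (s : ℝ) : Integrable (ker s) := by
  rw [ker_eq]; exact (ind_integrable _ _).sub (ind_integrable _ _)

lemma ker_integral (s : ℝ) : ∫ y, ker s y = s - 1 := by
  rw [ker_eq, integral_sub (ind_integrable _ _) (ind_integrable _ _), ind_integral, ind_integral]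
  rcases le_total s 1 with h | h
  · rw [max_eq_right (by linarith), max_eq_left (by linarith)]; ring
  · rw [max_eq_left (by linarith), max_eq_right (by linarith)]; ring

lemma ker_norm_integral (s : ℝ) : ∫ y, ‖ker s y‖ ≤ 2 * |s - 1| := by
  have h1 : ∀ y, ‖ker s y‖ ≤ (Ioc 1 s).indicator 1 y + (Ioc s 1).indicator 1 y := by
    intro y
    rw [ker_eq]
    have a1 : (0 : ℝ) ≤ (Ioc 1 s).indicator 1 y := indicator_nonneg (fun _ _ => zero_le_one) y
    have a2 : (0 : ℝ) ≤ (Ioc s 1).indicator 1 y := indicator_nonneg (fun _ _ => zero_le_one) y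
    rw [Real.norm_eq_abs, abs_le]
    constructor <;> linarith
  refine (integral_mono (ker_integrable s).norm ((ind_integrable _ _).add (ind_integrable _ _))
    h1).trans ?_
  simp only [Pi.add_apply]
  rw [integral_add (ind_integrable _ _) (ind_integrable _ _), ind_integral, ind_integral]
  have a1 : max (s - 1) 0 ≤ |s - 1| := max_le (le_abs_self _) (abs_nonneg _)
  have a2 : max (1 - s) 0 ≤ |s - 1| := max_le (by rw [abs_sub_comm]; exact le_abs_self _)
    (abs_nonneg _)
  linarith

lemma ker_measurable : Measurable (Function.uncurry ker) := by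
  unfold ker step Function.uncurry
  refine Measurable.sub ?_ ?_
  · exact Measurable.ite (measurableSet_le measurable_snd measurable_fst) measurable_const
      measurable_const
  · exact Measurable.ite (measurableSet_le measurable_snd measurable_const) measurable_const
      measurable_const

lemma ker_prod_integrable (hν : Integrable (fun s : ℝ => s) ν) :
    Integrable (Function.uncurry ker) (ν.prod volume) := by
  rw [integrable_prod_iff ker_measurable.aestronglyMeasurable]
  refine ⟨Eventually.of_forall ker_integrable, ?_⟩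
  refine Integrable.mono' ((hν.sub (integrable_const 1)).abs.const_mul 2) ?_
    (Eventually.of_forall fun s => ?_)
  · exact ker_measurable.stronglyMeasurable.norm.integral_prod_right'.aestronglyMeasurable
  · rw [Real.norm_eq_abs, abs_of_nonneg (integral_nonneg fun _ => norm_nonneg _)]
    exact ker_norm_integral s

lemma ker_integral_left (y : ℝ) : ∫ s, ker s y ∂ν = surv ν y - step y := by
  unfold ker
  have : (fun s : ℝ => (if y ≤ s then (1 : ℝ) else 0)) = (Ici y).indicator (fun _ => 1) := rfl
  rw [integral_sub _ (integrable_const _), this, integral_indicator measurableSet_Ici]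
  · simp [surv]
  · rw [this]; exact (integrable_const _).indicator measurableSet_Ici

lemma surv_sub_step (hν : Integrable (fun s : ℝ => s) ν) :
    Integrable (fun y => surv ν y - step y) ∧
      ∫ y, (surv ν y - step y) = (∫ s, s ∂ν) - 1 := by
  have hint := ker_prod_integrable ν hν
  refine ⟨?_, ?_⟩
  · have := hint.integral_prod_right
    simp only [Function.uncurry, ker_integral_left] at this
    exact this
  · have h := integral_integral_swap hint
    simp only [ker_integral, ker_integral_left] at h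
    rw [← h, integral_sub hν (integrable_const _)]
    simp

theorem main_measure (hν : Integrable (fun s : ℝ => s) ν) (hmean : ∫ s, s ∂ν = 4 / 3)
    (hmid : ∀ x d, 0 ≤ d → ν (Ici (x - d)) * ν (Ici (x + d)) ≤ ν (Ici x) * ν (Ici x)) :
    4 / 9 * exp (-(1 / 3)) ≤ ∫ y, w y * surv ν y := by
  obtain ⟨h1, h2⟩ := surv_sub_step ν hν
  refine main_analysis (surv_anti ν) (surv_nonneg ν) (surv_le_one ν) (fun x d hd => ?_)
    (surv_left ν) h1 (by rw [h2, hmean]; norm_num)
  unfold surv Measure.real
  rw [sq, ← ENNReal.toReal_mul, ← ENNReal.toReal_mul]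
  exact ENNReal.toReal_mono (by finiteness) (hmid x d hd)

end general

/-- The standard exponential law. -/
noncomputable def μ : Measure ℝ :=
  (volume.restrict (Ioi 0)).withDensity (fun x => ENNReal.ofReal (exp (-x)))

lemma dens_measurable : Measurable (fun x : ℝ => ENNReal.ofReal (exp (-x))) := by fun_prop

lemma lintegral_μ {f : ℝ → ℝ≥0∞} (hf : Measurable f) :
    ∫⁻ x, f x ∂μ = ∫⁻ x in Ioi 0, ENNReal.ofReal (exp (-x)) * f x := by
  unfold μ
  rw [lintegral_withDensity_eq_lintegral_mul _ dens_measurable hf]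
  rfl

lemma lintegral_exp_neg_mul {l : ℝ} (hl : 0 < l) (c : ℝ) :
    ∫⁻ x in Ioi c, ENNReal.ofReal (exp (-l * x)) = ENNReal.ofReal (exp (-l * c) / l) := by
  rw [← ofReal_integral_eq_lintegral_ofReal (integrableOn_exp_mul_Ioi (by linarith) c)
    (Eventually.of_forall fun x => (exp_pos _).le), integral_exp_mul_Ioi (by linarith) c]
  congr 1
  field_simp

instance : IsProbabilityMeasure μ := ⟨by
  have := lintegral_μ (f := fun _ => 1) measurable_const
  have h2 := lintegral_exp_neg_mul one_pos 0
  simp only [neg_mul, one_mul, neg_zero, exp_zero, div_one, ENNReal.ofReal_one] at h2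
  simp only [lintegral_const, one_mul, mul_one] at this
  rw [this, h2]⟩

lemma μ_integrable_id : Integrable (fun x : ℝ => x) μ := by
  unfold μ
  rw [integrable_withDensity_iff dens_measurable (Eventually.of_forall fun _ => by simp)]
  refine ((int_mul_exp one_pos le_rfl).1).congr (Eventually.of_forall fun x => ?_)
  simp [(exp_pos (-x)).le]

lemma μ_integral_id : ∫ x, x ∂μ = 1 := by
  unfold μ
  rw [integral_withDensity_eq_integral_toReal_smul dens_measurable
    (Eventually.of_forall fun _ => by simp)]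
  have := (int_mul_exp one_pos le_rfl).2
  simp only [one_mul, one_pow, div_one, zero_add, mul_zero, neg_zero, exp_zero,
    mul_one] at this
  rw [← this]
  refine integral_congr_ae (Eventually.of_forall fun x => ?_)
  simp [(exp_pos (-x)).le, mul_comm]

/-- The two-point log-concavity property. -/
def PF (F : ℝ → ℝ≥0∞) : Prop :=
  ∀ p d v : ℝ, 0 ≤ d → p ≤ v → F p * F (v + d) ≤ F (p + d) * F v

lemma PF.comp_mul {F : ℝ → ℝ≥0∞} (h : PF F) (c : ℝ) : PF (fun t => F (c * t)) := by
  intro p d v hd hpv
  rcases le_total 0 c with hc | hc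
  · have := h (c * p) (c * d) (c * v) (mul_nonneg hc hd) (mul_le_mul_of_nonneg_left hpv hc)
    simpa only [mul_add] using this
  · have := h (c * (v + d)) (-c * d) (c * (p + d)) (by nlinarith) (by nlinarith)
    rw [show c * (p + d) + -c * d = c * p by ring, show c * (v + d) + -c * d = c * v by ring]
      at this
    simp only
    rw [mul_comm (F (c * p)), mul_comm (F (c * (p + d)))]
    exact this

lemma conv_split {F : ℝ → ℝ≥0∞} (hF : Measurable F) (z : ℝ) {d : ℝ} (hd : 0 ≤ d) :
    ∫⁻ x, F (z + d - x) ∂μ = (∫⁻ x in Ioc 0 d, ENNReal.ofReal (exp (-x)) * F (z + d - x))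
      + ENNReal.ofReal (exp (-d)) * ∫⁻ x, F (z - x) ∂μ := by
  rw [lintegral_μ (by fun_prop), lintegral_μ (by fun_prop), ← Ioc_union_Ioi_eq_Ioi hd,
    lintegral_union measurableSet_Ioi Ioc_disjoint_Ioi_same, Ioc_union_Ioi_eq_Ioi hd]
  congr 1
  have h := (measurePreserving_add_right (volume : Measure ℝ) d).setLIntegral_comp_preimage_emb
    (measurableEmbedding_addRight d) (fun x => ENNReal.ofReal (exp (-x)) * F (z + d - x)) (Ioi d)
  rw [← h, ← lintegral_const_mul _ (by fun_prop)]
  have h2 : (fun x : ℝ => x + d) ⁻¹' Ioi d = Ioi 0 := by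
    ext x; simp
  rw [h2]
  refine lintegral_congr fun x => ?_
  rw [← mul_assoc, ← ENNReal.ofReal_mul (exp_pos _).le, ← exp_add]
  congr 2
  · congr 1; ring
  · ring

lemma PF.conv {F : ℝ → ℝ≥0∞} (h : PF F) (hF : Measurable F) :
    PF (fun t => ∫⁻ x, F (t - x) ∂μ) := by
  intro p d v hd hpv
  simp only
  rw [conv_split hF v hd, conv_split hF p hd, mul_add, add_mul]
  refine add_le_add ?_ (le_of_eq (by ring))
  rw [lintegral_μ (by fun_prop), lintegral_μ (by fun_prop), mul_comm _ (∫⁻ x in Ioi 0,
      ENNReal.ofReal (exp (-x)) * F (v - x)),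
    ← lintegral_lintegral_mul (by fun_prop) (by fun_prop),
    ← lintegral_lintegral_mul (by fun_prop) (by fun_prop)]
  refine setLIntegral_mono' measurableSet_Ioi fun r hr => ?_
  refine setLIntegral_mono' measurableSet_Ioc fun x hx => ?_
  have hr' : 0 < r := hr
  have h1 := h (p - r) (r + d - x) (v - r) (by linarith [hx.2]) (by linarith)
  rw [show v - r + (r + d - x) = v + d - x by ring, show p - r + (r + d - x) = p + d - x by ring]
    at h1
  calc ENNReal.ofReal (exp (-r)) * F (p - r) * (ENNReal.ofReal (exp (-x)) * F (v + d - x))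
      = ENNReal.ofReal (exp (-r)) * ENNReal.ofReal (exp (-x)) * (F (p - r) * F (v + d - x)) := by
        ring
    _ ≤ ENNReal.ofReal (exp (-r)) * ENNReal.ofReal (exp (-x)) * (F (p + d - x) * F (v - r)) := by
        gcongr
    _ = _ := by ring

lemma PF.conv_mul {F : ℝ → ℝ≥0∞} (h : PF F) (hF : Measurable F) (a : ℝ) :
    PF (fun t => ∫⁻ x, F (t + a * x) ∂μ) := by
  rcases eq_or_ne a 0 with rfl | ha
  · simpa using h
  · have h1 := ((h.comp_mul (-a)).conv (by fun_prop)).comp_mul (-a)⁻¹
    have h2 : (fun t => ∫⁻ x, F (t + a * x) ∂μ)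
        = fun t => ∫⁻ x, F (-a * ((-a)⁻¹ * t - x)) ∂μ := by
      funext t
      refine lintegral_congr fun x => ?_
      congr 1
      field_simp
      ring
    rw [h2]
    exact h1

/-- Average of `F (t + ∑ a_i X_i)`. -/
noncomputable def avg (N : ℕ) (a : Fin N → ℝ) (F : ℝ → ℝ≥0∞) (t : ℝ) : ℝ≥0∞ :=
  ∫⁻ x, F (t + ∑ i, a i * x i) ∂(Measure.pi fun _ : Fin N => μ)

lemma avg_measurable (N : ℕ) (a : Fin N → ℝ) {F : ℝ → ℝ≥0∞} (hF : Measurable F) :
    Measurable (avg N a F) := by
  unfold avg
  refine Measurable.lintegral_prod_right' (f := fun q : ℝ × (Fin N → ℝ) =>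
    F (q.1 + ∑ i, a i * q.2 i)) ?_
  fun_prop

lemma avg_zero (a : Fin 0 → ℝ) (F : ℝ → ℝ≥0∞) : avg 0 a F = F := by
  funext t
  simp [avg]

lemma avg_succ (N : ℕ) (a : Fin (N + 1) → ℝ) {F : ℝ → ℝ≥0∞} (hF : Measurable F) (t : ℝ) :
    avg (N + 1) a F t = ∫⁻ y, avg N (fun i => a i.succ) F (t + a 0 * y) ∂μ := by
  unfold avg
  have hp := (measurePreserving_piFinSuccAbove (fun _ : Fin (N + 1) => μ) 0).symm
  rw [← hp.lintegral_comp (by fun_prop), lintegral_prod _ (by fun_prop)]
  refine lintegral_congr fun y => lintegral_congr fun x => ?_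
  simp only [MeasurableEquiv.piFinSuccAbove_symm_apply, Fin.insertNthEquiv,
    Fin.sum_univ_succ, Fin.insertNth_zero, Equiv.coe_fn_mk, Fin.cons_succ,
    Fin.zero_succAbove, cast_eq, Fin.cons_zero, add_assoc]

lemma avg_PF (N : ℕ) (a : Fin N → ℝ) {F : ℝ → ℝ≥0∞} (hF : Measurable F) (h : PF F) :
    PF (avg N a F) := by
  induction N with
  | zero => rw [avg_zero]; exact h
  | succ n ih =>
    have : avg (n + 1) a F = fun t => ∫⁻ y, avg n (fun i => a i.succ) F (t + a 0 * y) ∂μ :=
      funext (avg_succ n a hF)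
    rw [this]
    exact (ih _).conv_mul (avg_measurable _ _ hF) _

/-- Indicator of the nonnegative half-line. -/
noncomputable def ind : ℝ → ℝ≥0∞ := (Ici (0 : ℝ)).indicator 1

lemma ind_measurable : Measurable ind := measurable_one.indicator measurableSet_Ici

lemma ind_PF : PF ind := by
  intro p d v hd hpv
  unfold ind
  by_cases hp : 0 ≤ p
  · have h1 : 0 ≤ p + d := by linarith
    have h2 : 0 ≤ v := by linarith
    have h3 : 0 ≤ v + d := by linarith
    simp [indicator, hp, h1, h2, h3]
  · simp [indicator, hp]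

/-- The law of `4/3 + ∑ a_i X_i`. -/
noncomputable def law (N : ℕ) (a : Fin N → ℝ) : Measure ℝ :=
  (Measure.pi fun _ : Fin N => μ).map (fun x => 4 / 3 + ∑ i, a i * x i)

lemma lin_measurable (N : ℕ) (a : Fin N → ℝ) :
    Measurable (fun x : Fin N → ℝ => 4 / 3 + ∑ i, a i * x i) := by fun_prop

instance (N : ℕ) (a : Fin N → ℝ) : IsProbabilityMeasure (law N a) :=
  Measure.isProbabilityMeasure_map (lin_measurable N a).aemeasurable

lemma law_Ici (N : ℕ) (a : Fin N → ℝ) (y : ℝ) : law N a (Ici y) = avg N a ind (4 / 3 - y) := by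
  unfold law avg
  rw [← lintegral_indicator_one measurableSet_Ici, lintegral_map
    (measurable_one.indicator measurableSet_Ici) (by fun_prop)]
  refine lintegral_congr fun x => ?_
  unfold ind
  by_cases h : y ≤ 4 / 3 + ∑ i, a i * x i
  · have h' : 0 ≤ 4 / 3 - y + ∑ i, a i * x i := by linarith
    simp [indicator, h, h']
  · have h' : ¬ 0 ≤ 4 / 3 - y + ∑ i, a i * x i := fun hh => h (by linarith)
    simp [indicator, h, h']

lemma lin_integrable (N : ℕ) (a : Fin N → ℝ) :
    Integrable (fun x : Fin N → ℝ => ∑ i, a i * x i) (Measure.pi fun _ : Fin N => μ) :=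
  integrable_finsetSum _ fun i _ =>
    (integrable_comp_eval (μ := fun _ : Fin N => μ) (i := i) μ_integrable_id).const_mul _

lemma law_integrable (N : ℕ) (a : Fin N → ℝ) : Integrable (fun s : ℝ => s) (law N a) := by
  unfold law
  rw [integrable_map_measure (by fun_prop) (lin_measurable N a).aemeasurable]
  exact (integrable_const _).add (lin_integrable N a)

lemma law_mean (N : ℕ) (a : Fin N → ℝ) (ha : ∑ i, a i = 0) : ∫ s, s ∂(law N a) = 4 / 3 := by
  unfold law
  rw [integral_map (lin_measurable N a).aemeasurable (by fun_prop), integral_add (integrable_const _)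
    (lin_integrable N a), integral_finsetSum _ (fun i _ =>
    (integrable_comp_eval (μ := fun _ : Fin N => μ) (i := i) μ_integrable_id).const_mul _)]
  have : ∀ i : Fin N, ∫ x : Fin N → ℝ, a i * x i ∂(Measure.pi fun _ : Fin N => μ) = a i := by
    intro i
    rw [integral_const_mul, integral_comp_eval (μ := fun _ : Fin N => μ) (i := i)
      (f := fun x => x) (by fun_prop), μ_integral_id, mul_one]
  simp [this, ha]

theorem law_lower (N : ℕ) (a : Fin N → ℝ) (ha : ∑ i, a i = 0) :
    4 / 9 * exp (-(1 / 3)) ≤ ∫ y, w y * surv (law N a) y := by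
  refine main_measure _ (law_integrable N a) (law_mean N a ha) (fun x d hd => ?_)
  have h := avg_PF N a ind_measurable ind_PF (4 / 3 - x - d) d (4 / 3 - x) hd (by linarith)
  rw [law_Ici, law_Ici, law_Ici, mul_comm]
  rw [show 4 / 3 - x - d + d = 4 / 3 - x by ring] at h
  rw [show 4 / 3 - (x + d) = 4 / 3 - x - d by ring, show 4 / 3 - (x - d) = 4 / 3 - x + d by ring]
  exact h

/-- The near-extremal coefficient vector `(-c, …, -c, 2)`. -/
def vec (c : ℝ) : (m : ℕ) → Fin (m + 1) → ℝ
  | 0 => fun _ => 2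
  | m + 1 => Fin.cons (-c) (vec c m)

lemma vec_sum (c : ℝ) (m : ℕ) : ∑ i, vec c m i = 2 - m * c := by
  induction m with
  | zero => simp [vec]
  | succ n ih =>
    rw [Fin.sum_univ_succ]
    simp only [vec, Fin.cons_zero, Fin.cons_succ, ih]
    push_cast
    ring

lemma avg_vec {c : ℝ} (hc : 0 ≤ c) (m : ℕ) (t : ℝ) :
    avg (m + 1) (vec c m) ind t ≤ ENNReal.ofReal (exp (t / 2) * ((1 + c / 2)⁻¹) ^ m) := by
  induction m generalizing t with
  | zero =>
    rw [avg_succ _ _ ind_measurable, avg_zero, lintegral_μ (by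
      have := ind_measurable
      fun_prop)]
    simp only [vec, pow_zero, mul_one]
    have h1 : ∫⁻ x in Ioi 0, ENNReal.ofReal (exp (-x)) * ind (t + 2 * x)
        ≤ ∫⁻ x, (Ici (-(t / 2))).indicator (fun x => ENNReal.ofReal (exp (-1 * x))) x := by
      refine (setLIntegral_le_lintegral _ _).trans (lintegral_mono fun x => ?_)
      unfold ind
      by_cases h : 0 ≤ t + 2 * x
      · have h' : -(t / 2) ≤ x := by linarith
        simp [indicator, h, h']
      · simp [indicator, h]
    refine h1.trans (le_of_eq ?_)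
    rw [lintegral_indicator measurableSet_Ici, ← setLIntegral_congr Ioi_ae_eq_Ici,
      lintegral_exp_neg_mul one_pos]
    simp
  | succ n ih =>
    rw [avg_succ _ _ ind_measurable]
    simp only [vec, Fin.cons_zero, Fin.cons_succ]
    refine (lintegral_mono fun y => ih _).trans (le_of_eq ?_)
    have hl : 0 < 1 + c / 2 := by linarith
    rw [lintegral_μ (by fun_prop)]
    have h1 : ∀ x : ℝ, ENNReal.ofReal (exp (-x)) *
        ENNReal.ofReal (exp ((t + -c * x) / 2) * ((1 + c / 2)⁻¹) ^ n)
        = ENNReal.ofReal (exp (t / 2) * ((1 + c / 2)⁻¹) ^ n) *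
          ENNReal.ofReal (exp (-(1 + c / 2) * x)) := by
      intro x
      rw [← ENNReal.ofReal_mul (exp_pos _).le, ← ENNReal.ofReal_mul (by positivity)]
      congr 1
      rw [← mul_assoc, ← exp_add, mul_right_comm, ← exp_add]
      congr 2
      ring
    simp only [h1]
    rw [lintegral_const_mul _ (by fun_prop), lintegral_exp_neg_mul hl,
      ← ENNReal.ofReal_mul (by positivity)]
    congr 1
    simp only [mul_zero, exp_zero, pow_succ]
    field_simp

theorem law_upper {c : ℝ} (hc : 0 ≤ c) (m : ℕ) :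
    ∫ y, w y * surv (law (m + 1) (vec c m)) y ≤ 4 / 9 * exp (2 / 3) * ((1 + c / 2)⁻¹) ^ m := by
  have hG : ∀ y, surv (law (m + 1) (vec c m)) y
      ≤ exp ((4 / 3 - y) / 2) * ((1 + c / 2)⁻¹) ^ m := by
    intro y
    unfold surv Measure.real
    rw [law_Ici]
    exact ENNReal.toReal_le_of_le_ofReal (by positivity) (avg_vec hc m _)
  have hint : Integrable (fun y => w y * surv (law (m + 1) (vec c m)) y) :=
    w_mul_integrable (surv_anti _).measurable.aestronglyMeasurable (surv_nonneg _) (surv_le_one _)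
  rw [← setIntegral_univ, ← Iic_union_Ioi (a := (0 : ℝ)),
    setIntegral_union (Iic_disjoint_Ioi le_rfl) measurableSet_Ioi hint.integrableOn
      hint.integrableOn,
    setIntegral_eq_zero_of_forall_eq_zero (fun y hy => by rw [w_of_nonpos hy, zero_mul]), zero_add]
  obtain ⟨h1, h2⟩ := int_mul_exp (l := 3 / 2) (by norm_num) (le_refl (0 : ℝ))
  have h3 := setIntegral_mono_on hint.integrableOn
    (h1.const_mul (exp (2 / 3) * ((1 + c / 2)⁻¹) ^ m)) measurableSet_Ioi (fun y hy => by
      have hy' : 0 < y := hy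
      have h4 : exp (-(3 / 2 * y)) * exp (2 / 3) = exp (-y) * exp ((4 / 3 - y) / 2) := by
        rw [← exp_add, ← exp_add]; congr 1; ring
      calc w y * surv (law (m + 1) (vec c m)) y
          ≤ w y * (exp ((4 / 3 - y) / 2) * ((1 + c / 2)⁻¹) ^ m) :=
            mul_le_mul_of_nonneg_left (hG y) (w_nonneg y)
        _ = y * (exp (-y) * exp ((4 / 3 - y) / 2)) * ((1 + c / 2)⁻¹) ^ m := by
            rw [w_of_nonneg hy'.le]; ring
        _ = exp (2 / 3) * ((1 + c / 2)⁻¹) ^ m * (y * exp (-(3 / 2 * y))) := by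
            rw [← h4]; ring)
  refine h3.trans (le_of_eq ?_)
  rw [integral_const_mul, h2]
  simp only [mul_zero, neg_zero, exp_zero]
  ring

lemma pi_μ (N : ℕ) : (Measure.pi fun _ : Fin N => μ) =
    (volume.restrict (Set.pi univ fun _ : Fin N => Ioi (0 : ℝ))).withDensity
      (fun x => ENNReal.ofReal (exp (-∑ i, x i))) := by
  refine Measure.pi_eq fun s hs => ?_
  have hexp : IntegrableOn (fun x : ℝ => exp (-x)) (Ioi 0) := integrableOn_exp_neg_Ioi 0
  have hi : ∀ i, Integrable (fun x : ℝ => exp (-x)) (volume.restrict (s i ∩ Ioi 0)) :=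
    fun i => hexp.mono_set inter_subset_right
  rw [withDensity_apply _ (MeasurableSet.univ_pi hs), Measure.restrict_restrict
    (MeasurableSet.univ_pi hs), ← Set.pi_inter_distrib, volume_pi, Measure.restrict_pi_pi]
  have h1 : (fun x : Fin N → ℝ => exp (-∑ i, x i)) = fun x => ∏ i, exp (-(x i)) := by
    funext x
    rw [← exp_sum, Finset.sum_neg_distrib]
  rw [← ofReal_integral_eq_lintegral_ofReal _ (Eventually.of_forall fun x => (exp_pos _).le)]
  · rw [h1, integral_fintype_prod_eq_prod (fun (_ : Fin N) (x : ℝ) => exp (-x)),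
      ENNReal.ofReal_prod_of_nonneg (fun i _ => integral_nonneg fun x => (exp_pos _).le)]
    refine Finset.prod_congr rfl fun i _ => ?_
    unfold μ
    rw [withDensity_apply _ (hs i), Measure.restrict_restrict (hs i),
      ofReal_integral_eq_lintegral_ofReal (hi i) (Eventually.of_forall fun x => (exp_pos _).le)]
  · rw [h1]
    exact Integrable.fintype_prod (f := fun (_ : Fin N) (x : ℝ) => exp (-x)) hi

lemma orthant_integral (N : ℕ) (a : Fin N → ℝ) {g : ℝ → ℝ} (hg : Measurable g) :
    ∫ x in Set.pi univ (fun _ : Fin N => Ioi (0 : ℝ)),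
      g (4 / 3 + ∑ i, a i * x i) * exp (-∑ i, x i) = ∫ s, g s ∂(law N a) := by
  unfold law
  rw [integral_map (lin_measurable N a).aemeasurable hg.aestronglyMeasurable, pi_μ,
    integral_withDensity_eq_integral_toReal_smul (by fun_prop)
      (Eventually.of_forall fun _ => by simp)]
  refine integral_congr_ae (Eventually.of_forall fun x => ?_)
  simp [(exp_pos _).le, mul_comm]

end Crest.Agent.R280
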